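import Vale.Agent.P170.H849.F

/-- For every `k ≥ 3` there are `α > 0` and `B` such that: (1) `α` is a limiting threshold of random
`k`-SAT; (2) the expected number of backbone variables of `F_{n,m}` (`0` if `F_{n,m}` is
unsatisfiable), summed over all numbers of clauses `m`, is at most `B n`; (3) for every `c < α` the
expected number of backbone variables of `F_{n,⌊cn⌋}` is `O(√n)`; (4) when the clauses are added one
by one, the probability that the last satisfiable formula has less than `δ n` backbone variables is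
at most `B δ ^ (k - 1)`. -/
theorem Vale.Agent.Results.P170.BackboneJump.result :
    ∀ k : ℕ, 3 ≤ k → ∃ α B : ℝ, 0 < B ∧ Vale.Agent.P170.IsLimitingThreshold k α ∧
      (∀ n M : ℕ, k ≤ n →
        ∑ m ∈ Finset.range M, Vale.Agent.P170.H849.backboneMean k n m ≤ B * n) ∧
      (∀ c : ℝ, 0 ≤ c → c < α → ∃ B' : ℝ, ∀ n : ℕ, k ≤ n →
        Vale.Agent.P170.H849.backboneMean k n ⌊c * n⌋₊ ≤ B' * Real.sqrt n) ∧
      (∀ (n M : ℕ) (δ : ℝ), k ≤ n → 0 ≤ δ →
        Vale.Agent.P170.H849.smallLastProb k n M (δ * n) ≤ B * δ ^ (k - 1)) :=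
  fun k hk => Vale.Agent.P170.H849.main k hk
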