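import Vale.Agent.P170.H243.Rates

/-- For every `k ≥ 3` random `k`-SAT has a limiting threshold `α`, and with a constant `A = A(k)`:
the scaling window has `O(√n)` clauses; the threshold for `n` variables is at most
`α n + O(√n)` clauses; away from `α` the convergence to `1` and to `0` has rate `O(1/√n)`. -/
theorem Vale.Agent.Results.P170.SqrtWindow.result :
    ∀ k : ℕ, 3 ≤ k → ∃ α A : ℝ, 0 < A ∧ Vale.Agent.P170.IsLimitingThreshold k α ∧
      (∀ n m m' : ℕ, k ≤ n → m ≤ m' →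
        ((m' : ℝ) - m) * ((1 - Vale.Agent.P170.satProb k n m) * Vale.Agent.P170.satProb k n m')
          ≤ A * Real.sqrt n) ∧
      (∀ n m : ℕ, k ≤ n →
        ((m : ℝ) - α * n) * Vale.Agent.P170.satProb k n m ≤ A * Real.sqrt n) ∧
      (∀ c : ℝ, 0 ≤ c → c < α → ∃ B : ℝ, ∀ n : ℕ, k ≤ n →
        (1 - Vale.Agent.P170.satProb k n ⌊c * n⌋₊) * Real.sqrt n ≤ B) ∧
      (∀ c : ℝ, α < c → ∃ B : ℝ, ∀ n : ℕ, k ≤ n →
        Vale.Agent.P170.satProb k n ⌊c * n⌋₊ * Real.sqrt n ≤ B) := by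
  intro k hk
  obtain ⟨α, A, hA, hthr, hwin, hone⟩ := Vale.Agent.P170.w_main k hk
  exact ⟨α, A, hA, hthr, hwin, hone,
    fun c hc0 hc => Vale.Agent.P170.w_rate_below (by omega) hthr hwin hc0 hc,
    fun c hc => Vale.Agent.P170.w_rate_above (by omega) hone hc⟩
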